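import Crest.Agent.X212.Loc8.Ab

/-!
# Row 212, SB-CORE (helper73): the class of a reducible connection on a compact piece
-/

set_option autoImplicit false
set_option linter.unusedSectionVars false
noncomputable section
open scoped Manifold ContDiff Topology InnerProductSpace Matrix
open MeasureTheory Function Filter Set Module
open Crest.Agent.R208.F (Ext)

namespace Crest.Agent.X212.Sb73
open An Int54 Qab60 M Cyl58 Cht98 G75 Loc8
open Num57 hiding c1 c2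
open Dr59 (Cl Ex Cs ip Lat psh)
open Line51 (Ln)
open Abel74 (fm)

variable {X : Mf 4} {A κ lam : Type} [Fintype A] [Fintype κ] [Fintype lam] [DecidableEq lam]
  {M : Mark X A κ} {W : World M} {N : ML M lam} (Λ : Lns W N) (m : M.Cl) {c : M.Cl} {p : Prm A}
  {π : Reg A} {O : Set X.M} {x : Cfg (W.Z c).M (Option κ) (lam ⊕ lam) 0} {ξ : (W.Z c).M → x.m.A}

theorem mp_oz (hO : IsOpen O) (sr : O ⊆ (W.φ c).source) :
    Dr59.Mp X.I (W.Z c).I O (oz W.toCaps c O) (W.φ c) := ⟨fun _ hx =>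
  (W.φ c).contMDiffOn_toFun.contMDiffAt ((W.φ c).open_source.mem_nhds (sr hx)),
  fun x hx => img_oz W.toCaps hO sr ⟨x, hx, rfl⟩⟩

/-- the densities of `u = 2 fm` -/
theorem den (hp : p.2 ∈ M.sys.Par) (hi : Sys.inf p.2 = c.1) (Ad : x.Adm (Λ.B m c) (Λ.G m c p))
    (R : Rd (Λ.G m c p).F x.m x.W (oz W.toCaps c O) ξ) :
    Den (W.F m c p) (Λ.B m c).o (oz W.toCaps c O) ((2 : ℝ) • fm (W.F m c p) x.m x.W ξ)
      (fun z => ‖x.m.Fg (W.F m c p) x.W z‖ ^ 2 / 4)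
      fun z => ‖x.m.p2 (Λ.B m c) z (x.m.Fg (W.F m c p) x.W z)‖ ^ 2 / 4 :=
  R.den (Λ.B_ok m c) (Λ.G_ok m (hi ▸ Mark.mem_O_cOf hp : p ∈ M.O c.1)) Ad.ok Ad.conn

/-- **the class** `v = φ^* (2 fm)` is closed on `O` and `Λ + v` is characteristic -/
theorem vpart (hπ : M.sys.Piece c.1 π) (hc : ∀ a ∈ Sys.bd π, M.pin a) (hp : p.2 ∈ M.sys.Par)
    (hi : Sys.inf p.2 = c.1) (hO : IsOpen O) (hs : O ⊆ M.sys.U π) (Ad : x.Adm (Λ.B m c) (Λ.G m c p))
    (R : Rd (Λ.G m c p).F x.m x.W (oz W.toCaps c O) ξ) :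
    Cl X.I 2 O (pX W.toCaps c ((2 : ℝ) • fm (W.F m c p) x.m x.W ξ)) ∧
      ∀ K a, IsCompact K → K ⊆ O → RL X.I K a → ∃ n : ℤ, ip X.I M.o (Ln.F X.I ⟨N.p, 0⟩ +
        pX W.toCaps c ((2 : ℝ) • fm (W.F m c p) x.m x.W ξ)) a + ip X.I M.o a a =
          2 * n * (2 * Real.pi) ^ 2 := by
  have pO : p ∈ M.O c.1 := hi ▸ Mark.mem_O_cOf hp
  have cp := isCompact_pc W.toCaps hπ hc
  have hB := Λ.B_ok m c
  have hG := Λ.G_ok m pO
  have hF : OK (W.F m c p) (Λ.B m c).o := OK.of_base (W.Z c).dim hB hG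
  have ho : SameOn (W.o c) (vol (W.F m c p) (Λ.B m c).o) univ := same_vol W m pO
  have sr := hs.trans (Loc8.U_src W.toCaps hπ)
  have oi := img_oz W.toCaps hO sr
  have os := oz_sub W.toCaps hπ hO hs
  have D := den Λ m hp hi Ad R
  have mp := mp_oz (W := W) (c := c) hO sr
  refine ⟨D.cl.pm mp, fun K a hK hK' ha => ?_⟩
  have k1 := ha.cs hK
  have k2 := hK'.trans sr
  have k3 := k1.psh (W.φ c) k2
  have h1 := (Λ.Λ m c).ln_on p
  have s1 : Dr59.Sm X.I K (pX W.toCaps c (((Λ.Λ m c).ln p).F (W.Z c).I)) :=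
    ((h1.cl_F isOpen_univ).pm ⟨fun x hx => mp.sm x (hK' hx), mapsTo_univ _ _⟩).sm
  have s2 := (N.ok.cl_F isOpen_univ).sm.mono (subset_univ K)
  have s3 := (D.cl.pm mp).sm.mono hK'
  refine (R.char_ln h1 hB hG Ad.ok Ad.conn (W.Z c).dim (ha.psh (W.φ c) hK k2)
    (hK.image_of_continuousOn ((W.φ c).contMDiffOn_toFun.continuousOn.mono k2)).isClosed
    ((image_mono hK').trans oi) (isOpen_pc _ hπ) cp os).imp fun n hn => Eq.trans ?_ hn
  show _ = ip (W.Z c).I (vol (W.F m c p) (Λ.B m c).o) (psh (W.φ c) a) (psh (W.φ c) a +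
    (((Λ.Λ m c).ln p).F (W.Z c).I + (2 : ℝ) • fm (W.F m c p) x.m x.W ξ))
  rw [Dr59.ip_comm k3.cl.dg, ← k3.ip_ori (W.ori c) hF.ori (ho.mono (subset_univ _)),
    k1.ip_psh (W.φ c) k2 (W.ori c) M.ori ((W.oφ c).mono k2), eq_comm, k1.ip_congr
      (c' := a + (pX W.toCaps c (((Λ.Λ m c).ln p).F (W.Z c).I) +
        pX W.toCaps c ((2 : ℝ) • fm (W.F m c p) x.m x.W ξ))) fun y hy => by
      rw [Dr59.pm_add, Dr59.pm_add, Pi.add_apply, Pi.add_apply a, Dr59.pm_psh _ (k2 hy)],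
    k1.ip_add M.ori (k1.on _).sm (s1.add s3), k1.ip_add M.ori s1 s3, k1.ip_add M.ori s2 s3,
    k1.ip_coh M.ori s1 s2 ((ex_line Λ m ⟨hp, hi.ge⟩).mono k2), add_comm]

end Crest.Agent.X212.Sb73
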